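import Vale.Agent.P113.H72.One

/-! # P113 part 2b: the periodic force is given by a finite list of valid periodic terms -/

open MeasureTheory Set
open scoped ContDiff

namespace Vale.Agent.P113.H72

open Vale.Agent.P113 H99

/-- Data of a function `∑ c ∏ᵢ φᵢ(xᵢ)`. -/
noncomputable def sep (L : List (ℝ × (Fin 3 → ℝ → ℝ))) (x : Fin 3 → ℝ) : ℝ :=
  (L.map fun a => a.1 * ∏ i, a.2 i (x i)).sum

/-- Derivative data. -/
noncomputable def dsep (k : Fin 3) (L : List (ℝ × (Fin 3 → ℝ → ℝ))) :
    List (ℝ × (Fin 3 → ℝ → ℝ)) :=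
  L.map fun a => (a.1, Function.update a.2 k (deriv (a.2 k)))

theorem hasDerivAt_prod (φ : Fin 3 → ℝ → ℝ) (k : Fin 3) (hφ : Differentiable ℝ (φ k))
    (x : Fin 3 → ℝ) :
    HasDerivAt (fun s => ∏ i, φ i (Function.update x k s i))
      (∏ i, Function.update φ k (deriv (φ k)) i (x i)) (x k) := by
  have h1 : ∀ s, ∏ i, φ i (Function.update x k s i)
      = φ k s * ∏ i ∈ Finset.univ.erase k, φ i (x i) := by
    intro s
    rw [← Finset.mul_prod_erase Finset.univ _ (Finset.mem_univ k)]
    congr 1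
    · simp
    · apply Finset.prod_congr rfl
      intro i hi
      rw [Function.update_of_ne (Finset.ne_of_mem_erase hi)]
  have h2 : ∏ i, Function.update φ k (deriv (φ k)) i (x i)
      = deriv (φ k) (x k) * ∏ i ∈ Finset.univ.erase k, φ i (x i) := by
    rw [← Finset.mul_prod_erase Finset.univ _ (Finset.mem_univ k)]
    congr 1
    · simp
    · apply Finset.prod_congr rfl
      intro i hi
      rw [Function.update_of_ne (Finset.ne_of_mem_erase hi)]
  rw [h2, funext h1]
  exact (hφ (x k)).hasDerivAt.mul_const _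

theorem hasDerivAt_sep (L : List (ℝ × (Fin 3 → ℝ → ℝ))) (k : Fin 3)
    (hL : ∀ a ∈ L, ∀ i, K (a.2 i)) (x : Fin 3 → ℝ) :
    HasDerivAt (fun s => sep L (Function.update x k s)) (sep (dsep k L) x) (x k) := by
  induction L with
  | nil => simpa [sep, dsep] using hasDerivAt_const (x k) (0 : ℝ)
  | cons a L ih =>
    have h1 := ih fun b hb => hL b (List.mem_cons_of_mem _ hb)
    have h2 := (hasDerivAt_prod a.2 k (hL a List.mem_cons_self k).differentiable x).const_mul a.1
    have h3 := h2.add h1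
    simp only [sep, dsep, List.map_cons, List.sum_cons] at h3 ⊢
    exact h3

theorem dx_sep (L : List (ℝ × (Fin 3 → ℝ → ℝ))) (k : Fin 3)
    (hL : ∀ a ∈ L, ∀ i, K (a.2 i)) (t : ℝ) (x : Fin 3 → ℝ) :
    dx k (fun _ x => sep L x) t x = sep (dsep k L) x := (hasDerivAt_sep L k hL x).deriv

theorem dsep_K {L : List (ℝ × (Fin 3 → ℝ → ℝ))} (k : Fin 3)
    (hL : ∀ a ∈ L, ∀ i, K (a.2 i)) : ∀ a ∈ dsep k L, ∀ i, K (a.2 i) := by
  intro a ha i
  obtain ⟨b, hb, rfl⟩ := List.mem_map.1 ha
  by_cases h : i = k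
  · subst h
    simpa using (hL b hb i).deriv
  · simpa [Function.update_of_ne h] using hL b hb i

/-- A function `∑ c ∏ᵢ φᵢ(xᵢ)` with rational `c` and `φᵢ` in the class `K` is representable. -/
theorem rep_sep {L : List (ℝ × (Fin 3 → ℝ → ℝ))} (hL : ∀ a ∈ L, ∀ i, K (a.2 i))
    (hc : ∀ a ∈ L, ∃ q : ℚ, a.1 = q) : Rep (fun _ _ x => sep L x) := by
  unfold sep
  refine rep_list_sum L (fun a _ _ x => a.1 * ∏ i, a.2 i (x i)) ?_
  intro a ha
  obtain ⟨q, hq⟩ := hc a ha
  have h0 := (hL a ha 0).rep_space 0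
  have h1 := (hL a ha 1).rep_space 1
  have h2 := (hL a ha 2).rep_space 2
  refine ((rep_const q).mul kappa_ne_zero ((h0.mul kappa_ne_zero h1).mul kappa_ne_zero h2)).congr
    ?_
  intro ν t x
  rw [hq, Fin.prod_univ_three]

theorem dsep_rat {L : List (ℝ × (Fin 3 → ℝ → ℝ))} (k : Fin 3)
    (hc : ∀ a ∈ L, ∃ q : ℚ, a.1 = q) : ∀ a ∈ dsep k L, ∃ q : ℚ, a.1 = q := by
  intro a ha
  obtain ⟨b, hb, rfl⟩ := List.mem_map.1 ha
  exact hc b hb

/-- The data of the function of a shear. -/
noncomputable def shearData (S : Shear) : List (ℝ × (Fin 3 → ℝ → ℝ)) :=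
  S.atoms.map fun A => ((A.c : ℝ), fun i => optFn (A.h i))

theorem shear_g (S : Shear) : S.g = sep (shearData S) := by
  funext x
  simp [Shear.g, sep, shearData, Atom.eval, List.map_map, Function.comp_def]

theorem shear_K {S : Shear} (hS : S.Ok) : ∀ a ∈ shearData S, ∀ i, K (a.2 i) := by
  intro a ha i
  obtain ⟨A, hA, rfl⟩ := List.mem_map.1 ha
  exact K_optFn fun P hP => (hS A hA).2 i P hP

theorem shear_rat (S : Shear) : ∀ a ∈ shearData S, ∃ q : ℚ, a.1 = q := by
  intro a ha
  obtain ⟨A, hA, rfl⟩ := List.mem_map.1 ha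
  exact ⟨A.c, rfl⟩

theorem rep_g {S : Shear} (hS : S.Ok) : Rep (fun _ _ x => S.g x) := by
  rw [shear_g]
  exact rep_sep (shear_K hS) (shear_rat S)

theorem rep_lap {S : Shear} (hS : S.Ok) :
    Rep (fun _ t x => ∑ k, dx k (dx k (fun _ x => S.g x)) t x) := by
  refine rep_finset_sum Finset.univ (fun k _ t x => dx k (dx k (fun _ x => S.g x)) t x) ?_
  intro k _
  have h1 : dx k (fun _ x => S.g x) = fun _ x => sep (dsep k (shearData S)) x := by
    funext t x
    rw [shear_g]
    exact dx_sep _ k (shear_K hS) t x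
  have h2 : ∀ t x, dx k (dx k (fun _ x => S.g x)) t x
      = sep (dsep k (dsep k (shearData S))) x := by
    intro t x
    rw [h1]
    exact dx_sep _ k (dsep_K k (shear_K hS)) t x
  refine (rep_sep (dsep_K k (dsep_K k (shear_K hS)))
    (dsep_rat k (dsep_rat k (shear_rat S)))).congr ?_
  intro ν t x
  exact (h2 t x).symm

/-- Part 2b. -/
theorem part2b : Part2b := by
  intro S hS i
  have h : Rep (fun ν t x => perForce S ν i t x) := by
    unfold perForce
    refine rep_finset_sum Finset.univ (fun (j : Fin S.length) ν t x => if (S.get j).l = i then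
      deriv (theta S.length j) t * (S.get j).g x
        - ν * (theta S.length j t *
          ∑ k, dx k (dx k (fun _ x => (S.get j).g x)) t x) else 0) ?_
    intro j _
    by_cases hj : (S.get j).l = i
    · have hok : (S.get j).Ok := hS _ (List.get_mem S j)
      have hθ : K (theta S.length j) := K_theta j.2
      have h1 := (hθ.deriv.rep_time).mul kappa_ne_zero (rep_g hok)
      have h2 := (((rep_const (-1)).mul kappa_ne_zero rep_nu)).mul kappa_ne_zero
        ((hθ.rep_time).mul kappa_ne_zero (rep_lap hok))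
      refine (h1.add h2).congr ?_
      intro ν t x
      rw [if_pos hj]
      push_cast
      ring
    · refine rep_zero.congr ?_
      intro ν t x
      rw [if_neg hj]
  exact h

end Vale.Agent.P113.H72
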