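import Vale.Agent.P113.Iface

/-! # P113 part 2b: algebra of lists of terms -/

open MeasureTheory Set
open scoped ContDiff

namespace Vale.Agent.P113.H72

open Vale.Agent.P113

/-- `F` is given by a finite list of valid periodic terms. -/
def Rep (F : ℝ → ℝ → (Fin 3 → ℝ) → ℝ) : Prop :=
  ∃ L : List Term, (∀ τ ∈ L, τ.Valid ∧ τ.isPeriodic = true) ∧ ∀ ν t x, evalList ν L t x = F ν t x

theorem exists_ratCode (q : ℚ) : ∃ r : RatCode, r.val = q := by
  refine ⟨⟨q.num, q.den - 1⟩, ?_⟩
  have h : ((q.den - 1 : ℕ) : ℚ) + 1 = q.den := by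
    have := q.den_pos
    exact_mod_cast Nat.sub_add_cancel this
  simp only [RatCode.val]
  rw [h]
  exact Rat.num_div_den q

/-- A code of a rational number. -/
noncomputable def rc (q : ℚ) : RatCode := (exists_ratCode q).choose

theorem rc_val (q : ℚ) : (rc q).val = q := (exists_ratCode q).choose_spec

theorem Rep.congr {F G : ℝ → ℝ → (Fin 3 → ℝ) → ℝ} (hF : Rep F)
    (h : ∀ ν t x, F ν t x = G ν t x) : Rep G := by
  obtain ⟨L, h1, h2⟩ := hF
  exact ⟨L, h1, fun ν t x => (h2 ν t x).trans (h ν t x)⟩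

theorem rep_zero : Rep (fun _ _ _ => 0) := ⟨[], by simp, by simp [evalList]⟩

theorem Rep.add {F G : ℝ → ℝ → (Fin 3 → ℝ) → ℝ} (hF : Rep F) (hG : Rep G) :
    Rep (fun ν t x => F ν t x + G ν t x) := by
  obtain ⟨L, h1, h2⟩ := hF
  obtain ⟨L', h1', h2'⟩ := hG
  refine ⟨L ++ L', ?_, fun ν t x => ?_⟩
  · intro τ hτ
    rcases List.mem_append.1 hτ with h | h
    · exact h1 τ h
    · exact h1' τ h
  · have e1 := h2 ν t x
    have e2 := h2' ν t x
    simp only [← e1, ← e2]
    simp [evalList]

/-- The product of two terms. -/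
noncomputable def tmul (τ σ : Term) : Term where
  q := rc (τ.q.val * σ.q.val)
  m := τ.m + σ.m
  n := τ.n + σ.n
  logs := τ.logs ++ σ.logs
  time := τ.time ++ σ.time
  h₁ := τ.h₁ ++ σ.h₁
  h₂ := τ.h₂ ++ σ.h₂
  h₃ := τ.h₃ ++ σ.h₃

theorem tmul_eval (hκ : kappa ≠ 0) (ν : ℝ) (τ σ : Term) (t : ℝ) (x : Fin 3 → ℝ) :
    (tmul τ σ).eval ν t x = τ.eval ν t x * σ.eval ν t x := by
  simp only [tmul, Term.eval, rc_val, spaceFactor, List.map_append, List.prod_append, pow_add,
    zpow_add₀ hκ]
  push_cast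
  ring

theorem tmul_valid {τ σ : Term} (hτ : τ.Valid) (hσ : σ.Valid) : (tmul τ σ).Valid := by
  obtain ⟨a1, a2, a3, a4, a5⟩ := hτ
  obtain ⟨b1, b2, b3, b4, b5⟩ := hσ
  refine ⟨?_, ?_, ?_, ?_, ?_⟩ <;>
    · intro g hg
      rcases List.mem_append.1 hg with h | h
      all_goals first
        | exact a1 g h
        | exact a2 g h
        | exact a3 g h
        | exact a4 g h
        | exact a5 g h
        | exact b1 g h
        | exact b2 g h
        | exact b3 g h
        | exact b4 g h
        | exact b5 g h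

theorem tmul_periodic {τ σ : Term} (hτ : τ.isPeriodic = true) (hσ : σ.isPeriodic = true) :
    (tmul τ σ).isPeriodic = true := by
  simp only [Term.isPeriodic, tmul, List.all_append, Bool.and_eq_true] at *
  exact ⟨hτ, hσ⟩

theorem Rep.mul (hκ : kappa ≠ 0) {F G : ℝ → ℝ → (Fin 3 → ℝ) → ℝ} (hF : Rep F) (hG : Rep G) :
    Rep (fun ν t x => F ν t x * G ν t x) := by
  obtain ⟨L, h1, h2⟩ := hF
  obtain ⟨L', h1', h2'⟩ := hG
  have key : ∀ L : List Term, (∀ τ ∈ L, τ.Valid ∧ τ.isPeriodic = true) →
      Rep (fun ν t x => evalList ν L t x * evalList ν L' t x) := by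
    intro L
    induction L with
    | nil =>
      intro _
      exact rep_zero.congr (by intro ν t x; simp [evalList])
    | cons τ L ih =>
      intro hL
      have h3 := ih (fun σ hσ => hL σ (List.mem_cons_of_mem _ hσ))
      have h4 : Rep (fun ν t x => τ.eval ν t x * evalList ν L' t x) := by
        refine ⟨L'.map (tmul τ), ?_, ?_⟩
        · intro σ hσ
          obtain ⟨σ', hσ', rfl⟩ := List.mem_map.1 hσ
          have hτ := hL τ List.mem_cons_self
          exact ⟨tmul_valid hτ.1 (h1' σ' hσ').1, tmul_periodic hτ.2 (h1' σ' hσ').2⟩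
        · intro ν t x
          simp only [evalList, List.map_map]
          rw [← List.sum_map_mul_left]
          congr 1
          apply List.map_congr_left
          intro σ _
          exact tmul_eval hκ ν τ σ t x
      refine (h4.add h3).congr ?_
      intro ν t x
      simp only [evalList, List.map_cons, List.sum_cons]
      ring
  refine (key L h1).congr ?_
  intro ν t x
  rw [h2, h2']

theorem rep_single (τ : Term) (h : τ.Valid) (h' : τ.isPeriodic = true) :
    Rep (fun ν t x => τ.eval ν t x) :=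
  ⟨[τ], by simpa using ⟨h, h'⟩, by simp [evalList]⟩

theorem rep_const (q : ℚ) : Rep (fun _ _ _ => (q : ℝ)) := by
  refine (rep_single ⟨rc q, 0, 0, [], [], [], [], []⟩ ?_ ?_).congr ?_
  · simp [Term.Valid]
  · simp [Term.isPeriodic]
  · intro ν t x
    simp [Term.eval, rc_val, spaceFactor]

theorem rep_nu : Rep (fun ν _ _ => ν) := by
  refine (rep_single ⟨rc 1, 1, 0, [], [], [], [], []⟩ ?_ ?_).congr ?_
  · simp [Term.Valid]
  · simp [Term.isPeriodic]
  · intro ν t x
    simp [Term.eval, rc_val, spaceFactor]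

theorem rep_kappa (n : ℤ) : Rep (fun _ _ _ => kappa ^ n) := by
  refine (rep_single ⟨rc 1, 0, n, [], [], [], [], []⟩ ?_ ?_).congr ?_
  · simp [Term.Valid]
  · simp [Term.isPeriodic]
  · intro ν t x
    simp [Term.eval, rc_val, spaceFactor]

theorem rep_time (g : BumpCode) (hg : g.Valid) : Rep (fun _ t _ => periodize g.eval t) := by
  refine (rep_single ⟨rc 1, 0, 0, [], [(true, g)], [], [], []⟩ ?_ ?_).congr ?_
  · simpa [Term.Valid] using hg
  · simp [Term.isPeriodic]
  · intro ν t x
    simp [Term.eval, rc_val, spaceFactor, timeFactor]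

theorem rep_space (i : Fin 3) (g : BumpCode) (hg : g.Valid) :
    Rep (fun _ _ x => periodize g.eval (x i)) := by
  fin_cases i
  · refine (rep_single ⟨rc 1, 0, 0, [], [], [g], [], []⟩ ?_ ?_).congr ?_
    · simpa [Term.Valid] using hg
    · simp [Term.isPeriodic]
    · intro ν t x
      simp [Term.eval, rc_val, spaceFactor]
  · refine (rep_single ⟨rc 1, 0, 0, [], [], [], [g], []⟩ ?_ ?_).congr ?_
    · simpa [Term.Valid] using hg
    · simp [Term.isPeriodic]
    · intro ν t x
      simp [Term.eval, rc_val, spaceFactor]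
  · refine (rep_single ⟨rc 1, 0, 0, [], [], [], [], [g]⟩ ?_ ?_).congr ?_
    · simpa [Term.Valid] using hg
    · simp [Term.isPeriodic]
    · intro ν t x
      simp [Term.eval, rc_val, spaceFactor]

theorem rep_list_sum {α : Type} (L : List α) (F : α → ℝ → ℝ → (Fin 3 → ℝ) → ℝ)
    (h : ∀ a ∈ L, Rep (F a)) : Rep (fun ν t x => (L.map fun a => F a ν t x).sum) := by
  induction L with
  | nil => exact rep_zero.congr (by simp)
  | cons a L ih =>
    refine ((h a List.mem_cons_self).add
      (ih fun b hb => h b (List.mem_cons_of_mem _ hb))).congr ?_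
    intro ν t x
    simp

theorem rep_finset_sum {α : Type} (s : Finset α) (F : α → ℝ → ℝ → (Fin 3 → ℝ) → ℝ)
    (h : ∀ a ∈ s, Rep (F a)) : Rep (fun ν t x => ∑ a ∈ s, F a ν t x) := by
  classical
  induction s using Finset.induction_on with
  | empty => exact rep_zero.congr (by simp)
  | insert a s ha ih =>
    refine ((h a (Finset.mem_insert_self a s)).add
      (ih fun b hb => h b (Finset.mem_insert_of_mem hb))).congr ?_
    intro ν t x
    rw [Finset.sum_insert ha]

end Vale.Agent.P113.H72
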