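import Vale.Agent.P113.H72.Alg
import Vale.Agent.P113.H99.Part2a

/-! # P113 part 2b: one-variable admissible functions, closed under derivation -/

open MeasureTheory Set
open scoped ContDiff

namespace Vale.Agent.P113.H72

open Vale.Agent.P113 H99

/-- A linear combination with rational coefficients of functions. -/
noncomputable def lc (L : List (ℚ × BumpCode)) (s : ℝ) : ℝ :=
  (L.map fun p => (p.1 : ℝ) * p.2.eval s).sum

/-- A linear combination with rational coefficients of periodized bumps. -/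
noncomputable def plc (L : List (ℚ × BumpCode)) (s : ℝ) : ℝ :=
  (L.map fun p => (p.1 : ℝ) * periodize p.2.eval s).sum

/-- The derivative of a bump, as a list. -/
noncomputable def dlist (g : BumpCode) : List (ℚ × BumpCode) :=
  match g.shape with
  | Sum.inl j => [((g.k : ℚ), ⟨g.k - 1, Sum.inl j, g.a, g.b⟩), (g.a.val, ⟨g.k, Sum.inl (j + 1), g.a, g.b⟩)]
  | Sum.inr l => [((g.k : ℚ), ⟨g.k - 1, Sum.inr l, g.a, g.b⟩), (g.a.val, ⟨g.k, Sum.inl 0, g.a, g.b⟩),
      (-g.a.val, ⟨g.k, Sum.inl 0, g.a, rc (g.b.val + l.val)⟩)]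

theorem dlist_valid {g : BumpCode} (hg : g.Valid) : ∀ p ∈ dlist g, p.2.Valid := by
  obtain ⟨k, s, a, b⟩ := g
  obtain ⟨h1, h2⟩ := hg
  rcases s with j | l
  · intro p hp
    simp only [dlist, List.mem_cons, List.not_mem_nil, or_false] at hp
    rcases hp with rfl | rfl
    · exact ⟨h1, by simp⟩
    · exact ⟨h1, by simp⟩
  · intro p hp
    simp only [dlist, List.mem_cons, List.not_mem_nil, or_false] at hp
    rcases hp with rfl | rfl | rfl
    · exact ⟨h1, h2⟩
    · exact ⟨h1, by simp⟩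
    · exact ⟨h1, by simp⟩

theorem eval_inl (k j : ℕ) (a b : RatCode) :
    (BumpCode.mk k (Sum.inl j) a b).eval = bR k j (a.val : ℝ) (b.val : ℝ) := rfl

theorem eval_inr (k : ℕ) (l a b : RatCode) :
    (BumpCode.mk k (Sum.inr l) a b).eval = bP k (l.val : ℝ) (a.val : ℝ) (b.val : ℝ) := rfl

theorem hasDerivAt_eval (g : BumpCode) (s : ℝ) : HasDerivAt g.eval (lc (dlist g) s) s := by
  obtain ⟨k, sh, a, b⟩ := g
  rcases sh with j | l
  · rw [eval_inl]
    refine (hasDerivAt_bR k j a.val b.val s).congr_deriv ?_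
    simp only [lc, dlist, List.map_cons, List.map_nil, List.sum_cons, List.sum_nil, eval_inl]
    push_cast
    ring
  · rw [eval_inr]
    refine (hasDerivAt_bP k l.val a.val b.val s).congr_deriv ?_
    simp only [lc, dlist, List.map_cons, List.map_nil, List.sum_cons, List.sum_nil, eval_inl,
      eval_inr, rc_val]
    push_cast
    ring

theorem exists_supp_eval {g : BumpCode} (hg : g.Valid) : ∃ R, Supp g.eval R := by
  obtain ⟨k, sh, a, b⟩ := g
  obtain ⟨h1, h2⟩ := hg
  have h1' : ((a.val : ℚ) : ℝ) ≠ 0 := by exact_mod_cast h1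
  rcases sh with j | l
  · rw [eval_inl]
    exact exists_supp_bR k j h1' _
  · rw [eval_inr]
    have h3 : (0 : ℝ) ≤ (l.val : ℝ) := by exact_mod_cast (h2 l rfl).le
    exact exists_supp_bP k h3 h1' _

/-- The periodization commutes with linear combinations. -/
theorem per_lc (L : List (ℚ × BumpCode)) (hL : ∀ p ∈ L, p.2.Valid) (y : ℝ) :
    periodize (lc L) y = plc L y := by
  have key : ∃ R, ∀ p ∈ L, Supp p.2.eval R := by
    induction L with
    | nil => exact ⟨0, by simp⟩
    | cons p L ih =>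
      obtain ⟨R, hR⟩ := ih fun q hq => hL q (List.mem_cons_of_mem _ hq)
      obtain ⟨R', hR'⟩ := exists_supp_eval (hL p List.mem_cons_self)
      refine ⟨max R R', ?_⟩
      intro q hq
      rcases List.mem_cons.1 hq with rfl | hq
      · exact hR'.mono (le_max_right _ _)
      · exact (hR q hq).mono (le_max_left _ _)
  obtain ⟨R, hR⟩ := key
  obtain ⟨N, hN⟩ := exists_nat_ge |y|
  have hlc : Supp (lc L) R := by
    intro s hs
    unfold lc
    apply List.sum_eq_zero
    intro z hz
    obtain ⟨p, hp, rfl⟩ := List.mem_map.1 hz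
    simp only [hR p hp s hs, mul_zero]
  rw [per_eq_sum hlc hN]
  unfold plc lc
  have h3 : ∀ p ∈ L, (p.1 : ℝ) * periodize p.2.eval y
      = ∑ m ∈ Finset.Icc (-(R + N : ℤ)) (R + N), (p.1 : ℝ) * p.2.eval (y + m) := by
    intro p hp
    rw [per_eq_sum (hR p hp) hN, Finset.mul_sum]
  rw [List.map_congr_left h3]
  clear h3 hlc hR hL
  induction L with
  | nil => simp
  | cons p L ih =>
    simp only [List.map_cons, List.sum_cons, Finset.sum_add_distrib, ih]

theorem hasDerivAt_periodize {g : BumpCode} (hg : g.Valid) (y : ℝ) :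
    HasDerivAt (periodize g.eval) (plc (dlist g) y) y := by
  obtain ⟨R, hR⟩ := exists_supp_eval hg
  rw [← per_lc _ (dlist_valid hg)]
  exact hasDerivAt_per hR (hasDerivAt_eval g) y

/-- The derivative of a linear combination of periodized bumps. -/
noncomputable def dplc (L : List (ℚ × BumpCode)) : List (ℚ × BumpCode) :=
  L.flatMap fun p => (dlist p.2).map fun q => (p.1 * q.1, q.2)

theorem dplc_valid {L : List (ℚ × BumpCode)} (hL : ∀ p ∈ L, p.2.Valid) :
    ∀ p ∈ dplc L, p.2.Valid := by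
  intro p hp
  obtain ⟨q, hq, hq'⟩ := List.mem_flatMap.1 hp
  obtain ⟨r, hr, rfl⟩ := List.mem_map.1 hq'
  exact dlist_valid (hL q hq) r hr

theorem plc_map (c : ℚ) (L : List (ℚ × BumpCode)) (y : ℝ) :
    plc (L.map fun q => (c * q.1, q.2)) y = c * plc L y := by
  induction L with
  | nil => simp [plc]
  | cons p L ih =>
    simp only [plc, List.map_cons, List.sum_cons] at ih ⊢
    rw [ih]
    push_cast
    ring

theorem hasDerivAt_plc {L : List (ℚ × BumpCode)} (hL : ∀ p ∈ L, p.2.Valid) (y : ℝ) :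
    HasDerivAt (plc L) (plc (dplc L) y) y := by
  induction L with
  | nil =>
    have : plc [] = fun _ => 0 := by funext z; simp [plc]
    rw [this]
    simpa [plc, dplc] using hasDerivAt_const y (0 : ℝ)
  | cons p L ih =>
    have h1 := ih fun q hq => hL q (List.mem_cons_of_mem _ hq)
    have h2 := (hasDerivAt_periodize (hL p List.mem_cons_self) y).const_mul (p.1 : ℝ)
    have h3 := h2.add h1
    refine (h3.congr_deriv ?_)
    have : dplc (p :: L) = ((dlist p.2).map fun q => (p.1 * q.1, q.2)) ++ dplc L := by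
      simp [dplc]
    rw [this, ← plc_map]
    simp only [plc, List.map_append, List.sum_append]

/-- One-variable functions `c + κ⁻¹ Σ qᵢ P[gᵢ]`. -/
def K (f : ℝ → ℝ) : Prop :=
  ∃ (c : ℚ) (L : List (ℚ × BumpCode)), (∀ p ∈ L, p.2.Valid) ∧
    ∀ y, f y = c + kappa⁻¹ * plc L y

theorem K.hasDerivAt {f : ℝ → ℝ} (hf : K f) : ∃ f' : ℝ → ℝ, K f' ∧ ∀ y, HasDerivAt f (f' y) y := by
  obtain ⟨c, L, hL, h⟩ := hf
  refine ⟨fun y => kappa⁻¹ * plc (dplc L) y, ⟨0, dplc L, dplc_valid hL, fun y => by simp⟩, ?_⟩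
  intro y
  have h1 := ((hasDerivAt_plc hL y).const_mul kappa⁻¹).const_add (c : ℝ)
  have h2 : f = fun y => (c : ℝ) + kappa⁻¹ * plc L y := funext h
  rw [h2]
  exact h1

theorem K.deriv {f : ℝ → ℝ} (hf : K f) : K (deriv f) := by
  obtain ⟨f', h1, h2⟩ := hf.hasDerivAt
  have : _root_.deriv f = f' := funext fun y => (h2 y).deriv
  rwa [this]

theorem K.differentiable {f : ℝ → ℝ} (hf : K f) : Differentiable ℝ f := by
  obtain ⟨f', _, h2⟩ := hf.hasDerivAt
  exact fun y => (h2 y).differentiableAt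

theorem K_one : K (fun _ => 1) := ⟨1, [], by simp, by simp [plc]⟩

theorem K_fn {P : Plateau} (hP : P.Ok) : K P.fn := by
  refine ⟨0, [(1, ⟨P.k, Sum.inr (rc (2 * (P.hi - P.lo) / P.δ + 2)), rc (2 / P.δ),
    rc (2 * P.lo / P.δ - 1)⟩)], ?_, ?_⟩
  · intro p hp
    rw [List.mem_singleton] at hp
    subst hp
    obtain ⟨h1, h2, h3⟩ := hP
    refine ⟨?_, ?_⟩
    · simp only [rc_val]
      positivity
    · intro l hl
      simp only [Sum.inr.injEq] at hl
      subst hl
      rw [rc_val]
      have : 0 ≤ 2 * (P.hi - P.lo) / P.δ := div_nonneg (by linarith) h1.le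
      linarith
  · intro y
    simp only [plc, List.map_cons, List.map_nil, List.sum_cons, List.sum_nil, eval_inr, rc_val]
    rw [H99.fn_eq]
    simp only [Rat.cast_zero, Rat.cast_one, one_mul, add_zero, zero_add]
    rfl

theorem K_optFn {h : Option Plateau} (hh : ∀ P, h = some P → P.Ok) : K (optFn h) := by
  rcases h with _ | P
  · exact K_one
  · exact K_fn (hh P rfl)

theorem K_theta {N j : ℕ} (h : j < N) : K (theta N j) := by
  refine ⟨0, [(4 * N, ⟨0, Sum.inl 0, rc (4 * N), rc (2 * N + 2 * j + 1)⟩)], ?_, ?_⟩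
  · intro p hp
    rw [List.mem_singleton] at hp
    subst hp
    refine ⟨?_, by simp⟩
    simp only [rc_val]
    have : (0 : ℚ) < N := by exact_mod_cast (by omega : 0 < N)
    positivity
  · intro y
    simp only [plc, List.map_cons, List.map_nil, List.sum_cons, List.sum_nil, eval_inl, rc_val]
    unfold theta
    have : bR 0 0 ((4 * N : ℚ) : ℝ) ((2 * N + 2 * j + 1 : ℚ) : ℝ)
        = fun s : ℝ => rho (4 * N * s - (2 * N + 2 * j + 1)) := by
      funext s
      simp [bR]
    rw [this]
    push_cast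
    ring

theorem rep_plc (F : ℝ → (Fin 3 → ℝ) → ℝ) (L : List (ℚ × BumpCode))
    (h : ∀ p ∈ L, Rep (fun _ t x => periodize p.2.eval (F t x))) :
    Rep (fun _ t x => plc L (F t x)) := by
  unfold plc
  refine rep_list_sum L (fun p _ t x => (p.1 : ℝ) * periodize p.2.eval (F t x)) ?_
  intro p hp
  exact (rep_const p.1).mul kappa_ne_zero (h p hp)

theorem K.rep_time {f : ℝ → ℝ} (hf : K f) : Rep (fun _ t _ => f t) := by
  obtain ⟨c, L, hL, h⟩ := hf
  have h1 := rep_plc (fun t _ => t) L fun p hp => H72.rep_time p.2 (hL p hp)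
  refine ((rep_const c).add ((rep_kappa (-1)).mul kappa_ne_zero h1)).congr ?_
  intro ν t x
  rw [h]
  simp

theorem K.rep_space {f : ℝ → ℝ} (hf : K f) (i : Fin 3) : Rep (fun _ _ x => f (x i)) := by
  obtain ⟨c, L, hL, h⟩ := hf
  have h1 := rep_plc (fun _ x => x i) L fun p hp => H72.rep_space i p.2 (hL p hp)
  refine ((rep_const c).add ((rep_kappa (-1)).mul kappa_ne_zero h1)).congr ?_
  intro ν t x
  rw [h]
  simp

end Vale.Agent.P113.H72
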